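import Vale.Agent.P237.Quant.TailData.N84.tailN84N1Part0
import Vale.Agent.P237.Quant.TailData.N84.tailN84N1Part1
import Vale.Agent.P237.Quant.TailData.N84.tailN84N1Part2
import Vale.Agent.P237.Quant.TailData.N84.tailN84N1Part3
import Vale.Agent.P237.Quant.TailData.N84.tailN84N1Part4
import Vale.Agent.P237.Quant.TailData.N84.tailN84N1Part5

/-!
Tail calibration tailN84N1 in dimension 84. The check. Generated data, checked by the kernel.
-/

set_option maxRecDepth 100000
set_option linter.all false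

namespace Vale.Agent.P237.Quant.TailData

open TailCert


/-- The calibration. -/
noncomputable def tailN84N1 : Cfg :=
  tailN84N1Base.withIvals (List.flatten [tailN84N1L0, tailN84N1L1, tailN84N1L2, tailN84N1L3, tailN84N1L4, tailN84N1L5, tailN84N1L6, tailN84N1L7, tailN84N1L8, tailN84N1L9, tailN84N1L10, tailN84N1L11, tailN84N1L12, tailN84N1L13, tailN84N1L14, tailN84N1L15, tailN84N1L16, tailN84N1L17, tailN84N1L18, tailN84N1L19, tailN84N1L20])

theorem tailN84N1_parts : [tailN84N1L0, tailN84N1L1, tailN84N1L2, tailN84N1L3, tailN84N1L4, tailN84N1L5, tailN84N1L6, tailN84N1L7, tailN84N1L8, tailN84N1L9, tailN84N1L10, tailN84N1L11, tailN84N1L12, tailN84N1L13, tailN84N1L14, tailN84N1L15, tailN84N1L16, tailN84N1L17, tailN84N1L18, tailN84N1L19, tailN84N1L20].Forall fun l => tailN84N1Base.partUsed tailN84N1Used l = true := by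
  simp only [List.forall_cons, List.Forall]
  exact ⟨tailN84N1L0_ok, tailN84N1L1_ok, tailN84N1L2_ok, tailN84N1L3_ok, tailN84N1L4_ok, tailN84N1L5_ok, tailN84N1L6_ok, tailN84N1L7_ok, tailN84N1L8_ok, tailN84N1L9_ok, tailN84N1L10_ok, tailN84N1L11_ok, tailN84N1L12_ok, tailN84N1L13_ok, tailN84N1L14_ok, tailN84N1L15_ok, tailN84N1L16_ok, tailN84N1L17_ok, tailN84N1L18_ok, tailN84N1L19_ok, tailN84N1L20_ok⟩

theorem tailN84N1_check : tailN84N1.check = true :=
  Cfg.check_of_parts (by decide +kernel) tailN84N1_parts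

end Vale.Agent.P237.Quant.TailData
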