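import Vale.Agent.P237.Quant.TailData.N84.tailN84P0Part0
import Vale.Agent.P237.Quant.TailData.N84.tailN84P0Part1
import Vale.Agent.P237.Quant.TailData.N84.tailN84P0Part2
import Vale.Agent.P237.Quant.TailData.N84.tailN84P0Part3
import Vale.Agent.P237.Quant.TailData.N84.tailN84P0Part4
import Vale.Agent.P237.Quant.TailData.N84.tailN84P0Part5
import Vale.Agent.P237.Quant.TailData.N84.tailN84P0Part6
import Vale.Agent.P237.Quant.TailData.N84.tailN84P0Part7

/-!
Tail calibration tailN84P0 in dimension 84. The check. Generated data, checked by the kernel.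
-/

set_option maxRecDepth 100000
set_option linter.all false

namespace Vale.Agent.P237.Quant.TailData

open TailCert


/-- The calibration. -/
noncomputable def tailN84P0 : Cfg :=
  tailN84P0Base.withIvals (List.flatten [tailN84P0L0, tailN84P0L1, tailN84P0L2, tailN84P0L3, tailN84P0L4, tailN84P0L5, tailN84P0L6, tailN84P0L7, tailN84P0L8, tailN84P0L9, tailN84P0L10, tailN84P0L11, tailN84P0L12, tailN84P0L13, tailN84P0L14, tailN84P0L15, tailN84P0L16, tailN84P0L17, tailN84P0L18, tailN84P0L19, tailN84P0L20, tailN84P0L21, tailN84P0L22, tailN84P0L23, tailN84P0L24, tailN84P0L25, tailN84P0L26, tailN84P0L27, tailN84P0L28, tailN84P0L29, tailN84P0L30])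

theorem tailN84P0_parts : [tailN84P0L0, tailN84P0L1, tailN84P0L2, tailN84P0L3, tailN84P0L4, tailN84P0L5, tailN84P0L6, tailN84P0L7, tailN84P0L8, tailN84P0L9, tailN84P0L10, tailN84P0L11, tailN84P0L12, tailN84P0L13, tailN84P0L14, tailN84P0L15, tailN84P0L16, tailN84P0L17, tailN84P0L18, tailN84P0L19, tailN84P0L20, tailN84P0L21, tailN84P0L22, tailN84P0L23, tailN84P0L24, tailN84P0L25, tailN84P0L26, tailN84P0L27, tailN84P0L28, tailN84P0L29, tailN84P0L30].Forall fun l => tailN84P0Base.partUsed tailN84P0Used l = true := by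
  simp only [List.forall_cons, List.Forall]
  exact ⟨tailN84P0L0_ok, tailN84P0L1_ok, tailN84P0L2_ok, tailN84P0L3_ok, tailN84P0L4_ok, tailN84P0L5_ok, tailN84P0L6_ok, tailN84P0L7_ok, tailN84P0L8_ok, tailN84P0L9_ok, tailN84P0L10_ok, tailN84P0L11_ok, tailN84P0L12_ok, tailN84P0L13_ok, tailN84P0L14_ok, tailN84P0L15_ok, tailN84P0L16_ok, tailN84P0L17_ok, tailN84P0L18_ok, tailN84P0L19_ok, tailN84P0L20_ok, tailN84P0L21_ok, tailN84P0L22_ok, tailN84P0L23_ok, tailN84P0L24_ok, tailN84P0L25_ok, tailN84P0L26_ok, tailN84P0L27_ok, tailN84P0L28_ok, tailN84P0L29_ok, tailN84P0L30_ok⟩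

theorem tailN84P0_check : tailN84P0.check = true :=
  Cfg.check_of_parts (by decide +kernel) tailN84P0_parts

end Vale.Agent.P237.Quant.TailData
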