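import Vale.Agent.P237.Quant.TailPartsLink
import Vale.Agent.P237.Quant.RowTables
import Vale.Agent.P237.Quant.EnvelopeTableData.N76
import Vale.Agent.P237.Quant.TailData.N84.tailN84P0
import Vale.Agent.P237.Quant.TailData.N84.tailN84P1
import Vale.Agent.P237.Quant.TailData.N84.tailN84P2
import Vale.Agent.P237.Quant.TailData.N84.tailN84P3
import Vale.Agent.P237.Quant.TailData.N84.tailN84N0
import Vale.Agent.P237.Quant.TailData.N84.tailN84N1

/-!
The tail inequalities of the rows of both sides in dimension 84. Generated.
-/

namespace Vale.Agent.P237.Quant

open TailCert TailData

/-- The tail inequalities of `negRow14` in dimension 84. -/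
theorem negRow14_tailAt84 : negRow14.TailAt 83 := by
  intro P hP
  simp only [negRow14, binsOf, List.mem_cons, List.not_mem_nil, or_false] at hP
  rcases hP with rfl | rfl
  · exact tailBin_negParts tailN84N0_check tailN84N0_parts envTable84_check (by decide +kernel)
  · exact tailBin_negParts tailN84N1_check tailN84N1_parts envTable84_check (by decide +kernel)

/-- The tail inequalities of `posRow55` in dimension 84. -/
theorem posRow55_tailAt84 : posRow55.TailAt 83 := by
  intro P hP
  simp only [posRow55, posRowB, posCuts14, posCuts16, binsOf, List.mem_cons, List.not_mem_nil, or_false] at hP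
  rcases hP with rfl | rfl | rfl | rfl
  · exact tailBin_posParts tailN84P0_check tailN84P0_parts envTable84_check (by decide +kernel)
  · exact tailBin_posParts tailN84P1_check tailN84P1_parts envTable84_check (by decide +kernel)
  · exact tailBin_posParts tailN84P2_check tailN84P2_parts envTable84_check (by decide +kernel)
  · exact tailBin_posParts tailN84P3_check tailN84P3_parts envTable84_check (by decide +kernel)

end Vale.Agent.P237.Quant
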